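import Mathlib
import Vale.Agent.P165.Basic

/-!
Events of finite regions: connection inside a set, exit from a box, boundary sums.
-/

namespace Vale.Agent.P165.Product

open MeasureTheory Finset

variable {W : Type} (H : SimpleGraph W)

/-- The graph induced on a finite set, on the same vertex type. -/
def inG (S : Finset W) : SimpleGraph W where
  Adj x y := H.Adj x y ∧ x ∈ S ∧ y ∈ S
  symm := ⟨fun _ _ ⟨h, a, b⟩ => ⟨h.symm, b, a⟩⟩
  loopless := ⟨fun _ ⟨h, _⟩ => h.ne rfl⟩

/-- Connection by open edges inside `S`. -/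
def connIn (S : Finset W) (x y : W) : Set (Sym2 W → Bool) :=
  {ω | (openGraph (inG H S) ω).Reachable x y}

variable {H}

lemma connIn_subset_conn (S : Finset W) (x y : W) : connIn H S x y ⊆ conn H x y :=
  fun ω h => SimpleGraph.Reachable.mono (G := openGraph (inG H S) ω) (G' := openGraph H ω)
    (fun _ _ hab => ⟨hab.1.1, hab.2⟩) h

lemma mem_of_connIn {S : Finset W} {x y : W} {ω : Sym2 W → Bool} (hx : x ∈ S)
    (h : ω ∈ connIn H S x y) : y ∈ S := by
  obtain ⟨q⟩ := h
  induction q with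
  | nil => exact hx
  | cons h q ih => exact ih h.1.2.2

lemma connIn_mono {S T : Finset W} {x y : W} {ω η : Sym2 W → Bool} (hST : S ⊆ T)
    (he : ∀ e, ω e = true → η e = true) (h : ω ∈ connIn H S x y) : η ∈ connIn H T x y :=
  SimpleGraph.Reachable.mono (G := openGraph (inG H S) ω) (G' := openGraph (inG H T) η)
    (fun _ _ hab => ⟨⟨hab.1.1, hST hab.1.2.1, hST hab.1.2.2⟩, he _ hab.2⟩) h

lemma dep_connIn (S : Finset W) (x y : W) : Dep (connIn H S x y) S.sym2 := by
  intro ω ω' he h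
  refine SimpleGraph.Reachable.mono (G := openGraph (inG H S) ω) (G' := openGraph (inG H S) ω')
    (fun a b hab => ⟨hab.1, ?_⟩) h
  rw [← he _ (mk_mem_sym2_iff.2 ⟨hab.1.2.1, hab.1.2.2⟩)]
  exact hab.2

lemma measurableSet_connIn (S : Finset W) (x y : W) : MeasurableSet (connIn H S x y) :=
  (dep_connIn S x y).measurableSet

variable [DecidableEq W]

variable (H)

/-- `x` is joined inside `B` to an open edge which leaves `B`. -/
def exitB (B : Finset W) (x : W) : Set (Sym2 W → Bool) :=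
  {ω | ∃ u v, v ∉ B ∧ H.Adj u v ∧ ω s(u, v) = true ∧ ω ∈ connIn H B x u}

open Classical in
/-- The vertices of `B` which are not joined to the outside. -/
noncomputable def inner (B : Finset W) (ω : Sym2 W → Bool) : Finset W :=
  B.filter fun x => ω ∉ exitB H B x

variable [H.LocallyFinite]

/-- The edges with an endpoint in `B`. -/
def edgesAt (B : Finset W) : Finset (Sym2 W) :=
  B.biUnion fun x => (H.neighborFinset x).image fun y => s(x, y)

/-- The oriented edges leaving `S`. -/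
def bd (S : Finset W) : Finset (W × W) :=
  S.biUnion fun a => ((H.neighborFinset a).filter fun b => b ∉ S).image fun b => (a, b)

/-- The expected number of open boundary edges of `S` reached inside `S`. -/
noncomputable def phi (p : unitInterval) (o : W) (S : Finset W) : ℝ :=
  p * ∑ e ∈ bd H S, (perc W p).real (connIn H S o e.1)

variable {H}

lemma mem_bd {S : Finset W} {a b : W} : (a, b) ∈ bd H S ↔ a ∈ S ∧ b ∉ S ∧ H.Adj a b := by
  simp only [bd, mem_biUnion, mem_image, mem_filter, SimpleGraph.mem_neighborFinset, Prod.mk.injEq]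
  constructor
  · rintro ⟨a', ha', b', ⟨h1, h2⟩, rfl, rfl⟩; exact ⟨ha', h2, h1⟩
  · rintro ⟨h1, h2, h3⟩; exact ⟨a, h1, b, ⟨h3, h2⟩, rfl, rfl⟩

lemma edge_inj_bd {S : Finset W} {e e' : W × W} (he : e ∈ bd H S) (he' : e' ∈ bd H S)
    (h : s(e.1, e.2) = s(e'.1, e'.2)) : e = e' := by
  obtain ⟨a, b⟩ := e
  obtain ⟨a', b'⟩ := e'
  rw [mem_bd] at he he'
  rcases Sym2.eq_iff.1 h with ⟨h1, h2⟩ | ⟨h1, h2⟩
  · exact Prod.ext h1 h2
  · simp only at h1; exact absurd (h1 ▸ he.1) he'.2.1

lemma mem_edgesAt {B : Finset W} {a b : W} (ha : a ∈ B) (h : H.Adj a b) :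
    s(a, b) ∈ edgesAt H B :=
  mem_biUnion.2 ⟨a, ha, mem_image.2 ⟨b, (H.mem_neighborFinset a b).2 h, rfl⟩⟩

lemma measurableSet_exitB (B : Finset W) {x : W} (hx : x ∈ B) : MeasurableSet (exitB H B x) := by
  have : exitB H B x = ⋃ e ∈ bd H B, connIn H B x e.1 ∩ allOpen {s(e.1, e.2)} := by
    ext ω
    simp only [Set.mem_iUnion, exists_prop, exitB, Set.mem_ofPred_eq, Set.mem_inter_iff]
    constructor
    · rintro ⟨u, v, hv, ha, ho, hc⟩
      exact ⟨(u, v), mem_bd.2 ⟨mem_of_connIn hx hc, hv, ha⟩, hc, by simpa [allOpen] using ho⟩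
    · rintro ⟨⟨u, v⟩, he, hc, ho⟩
      obtain ⟨-, hv, ha⟩ := mem_bd.1 he
      exact ⟨u, v, hv, ha, ho _ (mem_singleton_self _), hc⟩
  rw [this]
  exact Finset.measurableSet_biUnion _ fun e _ =>
    (measurableSet_connIn B x e.1).inter (measurableSet_allOpen _)

omit [DecidableEq W] [H.LocallyFinite] in
lemma exitB_mono {B : Finset W} {x : W} {ω η : Sym2 W → Bool}
    (he : ∀ e, ω e = true → η e = true) (h : ω ∈ exitB H B x) : η ∈ exitB H B x := by
  obtain ⟨u, v, hv, ha, ho, hc⟩ := h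
  exact ⟨u, v, hv, ha, he _ ho, connIn_mono subset_rfl he hc⟩

omit [DecidableEq W] [H.LocallyFinite] in
lemma exitB_step {B : Finset W} {a b : W} {ω : Sym2 W → Bool} (ha : a ∈ B) (hadj : H.Adj a b)
    (ho : ω s(a, b) = true) (h : b ∉ B ∨ ω ∈ exitB H B b) : ω ∈ exitB H B a := by
  by_cases hb : b ∈ B
  · obtain ⟨u, v, hv, huv, hov, hc⟩ := h.resolve_left (not_not.2 hb)
    exact ⟨u, v, hv, huv, hov,
      (SimpleGraph.Adj.reachable (G := openGraph (inG H B) ω) ⟨⟨hadj, ha, hb⟩, ho⟩).trans hc⟩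
  · exact ⟨a, b, hb, hadj, ho, SimpleGraph.Reachable.refl _⟩

omit [DecidableEq W] [H.LocallyFinite] in
/-- Exit paths pass through exiting vertices only. -/
lemma exit_transfer {B S : Finset W} {ω ω' : Sym2 W → Bool}
    (hS : ∀ x ∈ B, x ∉ S ↔ ω ∈ exitB H B x)
    (he : ∀ a b, H.Adj a b → a ∈ B → ¬(a ∈ S ∧ b ∈ S) → ω s(a, b) = ω' s(a, b))
    {x u : W} (q : (openGraph (inG H B) ω).Walk x u) (hx : x ∈ B)
    (hu : ∃ v, v ∉ B ∧ H.Adj u v ∧ ω s(u, v) = true) : ω' ∈ exitB H B x := by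
  induction q with
  | nil =>
    obtain ⟨v, hv, ha, ho⟩ := hu
    have hn : ω ∈ exitB H B _ := exitB_step hx ha ho (Or.inl hv)
    refine exitB_step hx ha ?_ (Or.inl hv)
    rw [← he _ _ ha hx (fun h => (hS _ hx).2 hn h.1)]; exact ho
  | @cons a b c hab q ih =>
    obtain ⟨v, hv, ha, ho⟩ := id hu
    have hb : ω ∈ exitB H B b := ⟨c, v, hv, ha, ho, ⟨q⟩⟩
    have hn : ω ∈ exitB H B a := exitB_step hx hab.1.1 hab.2 (Or.inr hb)
    refine exitB_step hx hab.1.1 ?_ (Or.inr (ih hab.1.2.2 hu))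
    rw [← he _ _ hab.1.1 hx (fun h => (hS _ hx).2 hn h.1)]; exact hab.2

/-- The set of inner vertices is decided by the edges which are not inside it. -/
lemma dep_inner (B S : Finset W) :
    Dep {ω | inner H B ω = S} (edgesAt H B \ S.sym2) := by
  intro ω ω' hag h
  classical
  have hS : ∀ x ∈ B, x ∉ S ↔ ω ∈ exitB H B x := by
    intro x hx
    rw [← (h : inner H B ω = S)]
    simp [inner, hx]
  have he : ∀ a b, H.Adj a b → a ∈ B → ¬(a ∈ S ∧ b ∈ S) → ω s(a, b) = ω' s(a, b) :=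
    fun a b hab ha hn => hag _ (mem_sdiff.2 ⟨mem_edgesAt ha hab, fun hm => hn (mk_mem_sym2_iff.1 hm)⟩)
  have key : ∀ x ∈ B, ω ∈ exitB H B x ↔ ω' ∈ exitB H B x := by
    intro x hx
    constructor
    · rintro ⟨u, v, hv, ha, ho, ⟨q⟩⟩
      exact exit_transfer hS he q hx ⟨v, hv, ha, ho⟩
    · rintro ⟨u, v, hv, ha, ho, ⟨q⟩⟩
      induction q with
      | @nil z =>
        by_cases hz : z ∈ S
        · refine exitB_step hx ha ?_ (Or.inl hv)
          rw [he _ _ ha hx (fun h' => hv ((mem_filter.1 ((h : inner H B ω = S).symm ▸ h'.2)).1))]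
          exact ho
        · exact (hS _ hx).1 hz
      | @cons a b c hab q ih =>
        by_cases hz : a ∈ S
        · by_cases hb : b ∈ S
          · exact absurd (ih hab.1.2.2 ha ho) (fun h' => (hS _ hab.1.2.2).2 h' hb)
          · refine exitB_step hx hab.1.1 ?_ (Or.inr ((hS _ hab.1.2.2).1 hb))
            rw [he _ _ hab.1.1 hx (fun h' => hb h'.2)]; exact hab.2
        · exact (hS _ hx).1 hz
  show inner H B ω' = S
  rw [← (h : inner H B ω = S)]
  exact filter_congr fun x hx => not_congr (key x hx).symm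

lemma measurableSet_inner (B S : Finset W) : MeasurableSet {ω | inner H B ω = S} :=
  (dep_inner B S).measurableSet

end Vale.Agent.P165.Product
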