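import Mathlib
import Vale.Agent.P165.Basic

/-!
Monotone coupling of Bernoulli configurations by sprinkling.
-/

namespace Vale.Agent.P165.Product

open MeasureTheory ProbabilityTheory unitInterval
open scoped ENNReal

variable {W : Type}

/-- The density of the union of two independent configurations. -/
def orQ (p h : unitInterval) : unitInterval := σ (σ p * σ h)

lemma coe_orQ (p h : unitInterval) : (orQ p h : ℝ) = p + (1 - (p : ℝ)) * h := by
  simp [orQ]; ring

/-- The union of two configurations. -/
def orCfg (x : (Sym2 W → Bool) × (Sym2 W → Bool)) : Sym2 W → Bool := fun e => x.1 e || x.2 e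

lemma measurable_orCfg : Measurable (orCfg (W := W)) := by
  refine measurable_pi_lambda _ fun e => ?_
  have h := ((measurable_pi_apply (X := fun _ : Sym2 W => Bool) e).comp measurable_fst).prodMk
    ((measurable_pi_apply (X := fun _ : Sym2 W => Bool) e).comp
      (measurable_snd : Measurable (Prod.snd : (Sym2 W → Bool) × (Sym2 W → Bool) → _)))
  exact Measurable.comp (g := fun b : Bool × Bool => b.1 || b.2) (measurable_of_finite _) h

lemma map_orCfg (p h : unitInterval) :
    ((perc W p).prod (perc W h)).map orCfg = perc W (orQ p h) := by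
  refine Measure.eq_infinitePi _ fun s t ht => ?_
  classical
  rw [Measure.map_apply measurable_orCfg (MeasurableSet.pi s.countable_toSet fun i _ => ht i),
    Measure.prod_apply (measurable_orCfg (MeasurableSet.pi s.countable_toSet fun i _ => ht i))]
  let g : Sym2 W → Bool → ℝ≥0∞ := fun i b =>
    bernoulliMeasure true false h {c | (b || c) ∈ t i}
  have e1 : ∀ ω : Sym2 W → Bool,
      perc W h (Prod.mk ω ⁻¹' (orCfg ⁻¹' Set.pi s t)) = ∏ i ∈ s, g i (ω i) := by
    intro ω
    have : Prod.mk ω ⁻¹' (orCfg ⁻¹' Set.pi (s : Set (Sym2 W)) t)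
        = Set.pi (s : Set (Sym2 W)) (fun i => {c | (ω i || c) ∈ t i}) := by
      ext η; simp [orCfg]
    rw [this, perc]
    exact Measure.infinitePi_pi _ fun _ _ => (Set.toFinite _).measurableSet
  simp only [e1]
  have hX : iIndepFun (fun (i : Sym2 W) (ω : Sym2 W → Bool) => g i (ω i)) (perc W p) :=
    iIndepFun_infinitePi (Ω := fun _ : Sym2 W => Bool)
      (P := fun _ : Sym2 W => bernoulliMeasure true false p) (X := g) fun i => measurable_of_finite _
  have hm : ∀ i : Sym2 W, Measurable fun ω : Sym2 W → Bool => g i (ω i) := fun i =>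
    Measurable.comp (g := fun b => g i b) (measurable_of_finite _)
      (measurable_pi_apply (X := fun _ : Sym2 W => Bool) i)
  rw [lintegral_prod_eq_prod_lintegral_of_indepFun (μ := perc W p) s _ hX hm]
  refine Finset.prod_congr rfl fun i _ => ?_
  have : (∫⁻ ω, g i (ω i) ∂perc W p) = ∫⁻ b, g i b ∂bernoulliMeasure true false p := by
    rw [← lintegral_map (f := g i) (measurable_of_finite _)
      (measurable_pi_apply (X := fun _ : Sym2 W => Bool) i), perc, Measure.infinitePi_map_eval]
  rw [this]
  have hc : ∀ r : unitInterval, (unitInterval.toNNReal r : ℝ≥0∞) = ENNReal.ofReal r := fun r => by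
    rw [ENNReal.ofReal_eq_coe_nnreal r.2.1]; rfl
  have hint : ∀ f : Bool → ℝ≥0∞, ∫⁻ b, f b ∂bernoulliMeasure true false p
      = ENNReal.ofReal p * f true + ENNReal.ofReal (1 - (p : ℝ)) * f false := by
    intro f
    rw [bernoulliMeasure_def]
    simp [ENNReal.smul_def, hc]
  have hr : ∀ (r : unitInterval) (u : Set Bool), bernoulliMeasure true false r u
      = ENNReal.ofReal r * u.indicator 1 true + ENNReal.ofReal (1 - (r : ℝ)) * u.indicator 1 false := by
    intro r u
    rw [bernoulliMeasure_def]
    simp [Set.indicator, hc]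
  rw [hint]
  simp only [g, hr, coe_orQ]
  have hp := p.2
  have hh := h.2
  by_cases h1 : true ∈ t i <;> by_cases h2 : false ∈ t i <;>
    simp [h1, h2, ← ENNReal.ofReal_mul, ← ENNReal.ofReal_add, hp.1, hp.2, hh.1, hh.2,
      mul_nonneg, sub_nonneg]
  · have := mul_nonneg (sub_nonneg.2 hp.2) (sub_nonneg.2 hh.2)
    have hn := mul_nonneg (sub_nonneg.2 hp.2) hh.1
    rw [← ENNReal.ofReal_add (by linarith [hp.1]) (by linarith)]
    norm_num
  · congr 1; ring

/-- Increasing events become more likely with a larger density. -/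
lemma real_le_orQ {A : Set (Sym2 W → Bool)} (hA : MeasurableSet A)
    (hmono : ∀ ω η : Sym2 W → Bool, (∀ e, ω e = true → η e = true) → ω ∈ A → η ∈ A)
    (p h : unitInterval) : (perc W p).real A ≤ (perc W (orQ p h)).real A := by
  rw [← map_orCfg p h, map_measureReal_apply measurable_orCfg hA]
  calc (perc W p).real A = ((perc W p).prod (perc W h)).real (A ×ˢ Set.univ) := by
        rw [measureReal_prod_prod]; simp
    _ ≤ _ := measureReal_mono (fun x hx => hmono x.1 _ (fun e he => by simp [orCfg, he]) hx.1)

/-- Every larger density is obtained by sprinkling. -/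
lemma exists_orQ {p q : unitInterval} (hpq : (p : ℝ) ≤ q) : ∃ h, orQ p h = q := by
  rcases eq_or_lt_of_le p.2.2 with hp | hp
  · exact ⟨0, Subtype.ext (by rw [coe_orQ]; simp; linarith [q.2.2])⟩
  · refine ⟨⟨((q : ℝ) - p) / (1 - p), ?_, ?_⟩, Subtype.ext ?_⟩
    · exact div_nonneg (by linarith) (by linarith)
    · rw [div_le_one (by linarith)]; linarith [q.2.2]
    · rw [coe_orQ]; simp only; field_simp; ring

/-- Increasing events are monotone in the density. -/
lemma real_mono {A : Set (Sym2 W → Bool)} (hA : MeasurableSet A)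
    (hmono : ∀ ω η : Sym2 W → Bool, (∀ e, ω e = true → η e = true) → ω ∈ A → η ∈ A)
    {p q : unitInterval} (hpq : (p : ℝ) ≤ q) : (perc W p).real A ≤ (perc W q).real A := by
  obtain ⟨h, rfl⟩ := exists_orQ hpq
  exact real_le_orQ hA hmono p h

end Vale.Agent.P165.Product
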