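import Mathlib
import Vale.Agent.P165.Unique
import Vale.Agent.P165.Product.Sprinkle
import Vale.Agent.P165.Product.Local

/-!
Sharpness: below the critical point some finite set has boundary sum below one
(Duminil-Copin and Tassion, by sprinkling).
-/

namespace Vale.Agent.P165.Product

open MeasureTheory Finset

variable {W : Type} [DecidableEq W] {H : SimpleGraph W} [H.LocallyFinite] {p h : unitInterval}
  {o : W} {B : Finset W}

/-- The gain from sprinkling on one boundary edge. -/
def gain (H : SimpleGraph W) [H.LocallyFinite] (B : Finset W) (o : W) (S : Finset W) (e : W × W) :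
    Set ((Sym2 W → Bool) × (Sym2 W → Bool)) :=
  ({ω | inner H B ω = S} ∩ connIn H S o e.1) ×ˢ allOpen {s(e.1, e.2)}

lemma gain_subset {S : Finset W} {e : W × W} (he : e ∈ bd H S) :
    gain H B o S e ⊆ orCfg ⁻¹' exitB H B o := by
  rintro ⟨ω, η⟩ ⟨⟨hi, hc⟩, hopen⟩
  obtain ⟨a, b⟩ := e
  obtain ⟨ha, hb, hab⟩ := mem_bd.1 he
  classical
  have hSB : S ⊆ B := (hi : inner H B ω = S) ▸ filter_subset _ _
  have hle : ∀ e, ω e = true → orCfg (ω, η) e = true := fun e h => by simp [orCfg, h]
  have hη : η s(a, b) = true := hopen _ (mem_singleton_self _)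
  have hnew : orCfg (ω, η) s(a, b) = true := by simp [orCfg, hη]
  have hpath : orCfg (ω, η) ∈ connIn H B o a := connIn_mono hSB hle hc
  by_cases hbB : b ∈ B
  · have hb' : ω ∈ exitB H B b := by
      by_contra hn
      refine hb ((hi : inner H B ω = S) ▸ ?_)
      unfold inner
      exact mem_filter.2 ⟨hbB, hn⟩
    obtain ⟨u, v, hv, huv, hov, hcu⟩ := exitB_step (hSB ha) hab hnew (Or.inr (exitB_mono hle hb'))
    exact ⟨u, v, hv, huv, hov, hpath.trans hcu⟩
  · exact ⟨a, b, hbB, hab, hnew, hpath⟩

lemma real_gain (S : Finset W) (e : W × W) :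
    ((perc W p).prod (perc W h)).real (gain H B o S e) =
      (perc W p).real {ω | inner H B ω = S} * (perc W p).real (connIn H S o e.1) * h := by
  rw [gain, measureReal_prod_prod, real_allOpen,
    real_inter_of_disjoint (dep_inner B S) (dep_connIn S o e.1) sdiff_disjoint]
  simp

/-- The number of pairs of edges in the box. -/
def pairBound (H : SimpleGraph W) [H.LocallyFinite] (B : Finset W) : ℝ :=
  ∑ S ∈ B.powerset, ((bd H S).card : ℝ) ^ 2

lemma sprinkle_step (ho : o ∈ B) (hphi : ∀ S : Finset W, o ∈ S → 1 ≤ phi H p o S) :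
    (perc W p).real (exitB H B o) + h * (1 - (perc W p).real (exitB H B o))
      - pairBound H B * (h : ℝ) ^ 2 ≤ (perc W (orQ p h)).real (exitB H B o) := by
  classical
  set μ := perc W p
  set ν := (perc W p).prod (perc W h)
  let X := B.powerset.filter fun S => o ∈ S
  let G : Finset W → Set ((Sym2 W → Bool) × (Sym2 W → Bool)) := fun S =>
    ⋃ e ∈ bd H S, gain H B o S e
  have hgm : ∀ S e, MeasurableSet (gain H B o S e) := fun S e =>
    ((measurableSet_inner B S).inter (measurableSet_connIn S o e.1)).prod (measurableSet_allOpen _)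
  have hGm : ∀ S, MeasurableSet (G S) := fun S =>
    Finset.measurableSet_biUnion _ fun e _ => hgm S e
  have hGin : ∀ S x, x ∈ G S → inner H B x.1 = S := by
    intro S x hx
    simp only [G, Set.mem_iUnion] at hx
    obtain ⟨e, -, hx⟩ := hx
    exact hx.1.1
  -- disjointness from the exit event
  have hno : ∀ S ∈ X, Disjoint (exitB H B o ×ˢ (Set.univ : Set (Sym2 W → Bool))) (G S) := by
    intro S hS
    refine Set.disjoint_left.2 fun x hx hxG => ?_
    have := hGin S x hxG ▸ (mem_filter.1 hS).2
    simp only [inner, mem_filter] at this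
    exact this.2 hx.1
  have hsub : (exitB H B o ×ˢ (Set.univ : Set (Sym2 W → Bool))) ∪ (⋃ S ∈ X, G S)
      ⊆ orCfg ⁻¹' exitB H B o := by
    refine Set.union_subset (fun x hx => exitB_mono (fun e he => by simp [orCfg, he]) hx.1) ?_
    exact Set.iUnion₂_subset fun S _ => Set.iUnion₂_subset fun e he =>
      gain_subset he
  have hG : ∀ S ∈ X, μ.real {ω | inner H B ω = S} * h - ((bd H S).card : ℝ) ^ 2 * (h : ℝ) ^ 2
      ≤ ν.real (G S) := by
    intro S hS
    refine le_trans ?_ (sum_sub_pairs_le ν (gain H B o S) (hgm S) (bd H S))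
    have h1 : μ.real {ω | inner H B ω = S} * h ≤ ∑ e ∈ bd H S, ν.real (gain H B o S e) := by
      simp only [ν, real_gain, ← Finset.sum_mul, ← Finset.mul_sum]
      have hs := hphi S (mem_filter.1 hS).2
      rw [phi] at hs
      have hs' : 1 ≤ ∑ e ∈ bd H S, μ.real (connIn H S o e.1) :=
        hs.trans (mul_le_of_le_one_left (sum_nonneg fun _ _ => measureReal_nonneg) p.2.2)
      exact mul_le_mul_of_nonneg_right (le_mul_of_one_le_right measureReal_nonneg hs') h.2.1
    have h2 : ∑ e ∈ bd H S, ∑ e' ∈ (bd H S).erase e,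
        ν.real (gain H B o S e ∩ gain H B o S e') ≤ ((bd H S).card : ℝ) ^ 2 * (h : ℝ) ^ 2 := by
      have hterm : ∀ e ∈ bd H S, ∀ e' ∈ (bd H S).erase e,
          ν.real (gain H B o S e ∩ gain H B o S e') ≤ (h : ℝ) ^ 2 := by
        intro e he e' he'
        have hne : s(e.1, e.2) ≠ s(e'.1, e'.2) := fun h' =>
          (mem_erase.1 he').1 (edge_inj_bd he (mem_erase.1 he').2 h').symm
        refine le_trans (measureReal_mono (s₂ := Set.univ ×ˢ allOpen {s(e.1, e.2), s(e'.1, e'.2)})
          fun x hx => ⟨trivial, fun z hz => ?_⟩) ?_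
        · rcases mem_insert.1 hz with rfl | hz
          · exact hx.1.2 _ (mem_singleton_self _)
          · exact hx.2.2 _ hz
        · simp [ν, measureReal_prod_prod, real_allOpen, card_pair hne]
      calc _ ≤ ∑ e ∈ bd H S, ∑ _e' ∈ (bd H S).erase e, (h : ℝ) ^ 2 :=
            sum_le_sum fun e he => sum_le_sum (hterm e he)
        _ ≤ ∑ e ∈ bd H S, ∑ _e' ∈ bd H S, (h : ℝ) ^ 2 :=
            sum_le_sum fun e _ => sum_le_sum_of_subset_of_nonneg (erase_subset _ _)
              fun _ _ _ => sq_nonneg _
        _ = _ := by simp; ring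
    linarith
  have hcompl : ∑ S ∈ X, μ.real {ω | inner H B ω = S} = 1 - μ.real (exitB H B o) := by
    rw [← probReal_compl_eq_one_sub (measurableSet_exitB B ho),
      ← measureReal_biUnion_finset (fun S _ T _ hne => Set.disjoint_left.2 fun ω hS hT =>
        hne (hS.symm.trans hT)) fun S _ => measurableSet_inner B S]
    congr 1
    ext ω
    simp only [X, Set.mem_iUnion, Set.mem_ofPred_eq, exists_prop, mem_filter, mem_powerset,
      Set.mem_compl_iff]
    constructor
    · rintro ⟨S, ⟨-, hoS⟩, rfl⟩ hω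
      exact (mem_filter.1 hoS).2 hω
    · exact fun hω => ⟨_, ⟨filter_subset _ _, mem_filter.2 ⟨ho, hω⟩⟩, rfl⟩
  rw [← map_orCfg p h, map_measureReal_apply measurable_orCfg (measurableSet_exitB B ho)]
  refine le_trans ?_ (measureReal_mono hsub)
  rw [measureReal_union (Set.disjoint_iUnion₂_right.2 hno)
      (Finset.measurableSet_biUnion _ fun S _ => hGm S) (measure_ne_top _ _) (measure_ne_top _ _),
    measureReal_biUnion_finset (fun S _ T _ hne => Set.disjoint_left.2 fun x hS hT =>
      hne ((hGin S x hS).symm.trans (hGin T x hT))) (fun S _ => hGm S) fun S _ => measure_ne_top _ _]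
  have h3 := sum_le_sum hG
  rw [sum_sub_distrib, ← sum_mul, hcompl, ← sum_mul] at h3
  have h4 : ∑ S ∈ X, ((bd H S).card : ℝ) ^ 2 ≤ pairBound H B :=
    sum_le_sum_of_subset_of_nonneg (filter_subset _ _) fun _ _ _ => sq_nonneg _
  have h5 := mul_le_mul_of_nonneg_right h4 (sq_nonneg (h : ℝ))
  simp only [ν, measureReal_prod_prod, probReal_univ, mul_one] at h3 ⊢
  linarith

lemma phi_mono {q : unitInterval} (hpq : (p : ℝ) ≤ q) (S : Finset W) :
    phi H p o S ≤ phi H q o S := by
  refine mul_le_mul hpq (sum_le_sum fun e _ => ?_) (sum_nonneg fun _ _ => measureReal_nonneg) q.2.1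
  exact real_mono (measurableSet_connIn S o e.1)
    (fun ω η he hm => connIn_mono subset_rfl he hm) hpq

lemma exitB_lower {q : unitInterval} (hpq : (p : ℝ) < q) (ho : o ∈ B)
    (hphi : ∀ S : Finset W, o ∈ S → 1 ≤ phi H p o S) :
    ((q : ℝ) - p) / 2 ≤ (perc W q).real (exitB H B o) := by
  set δ : ℝ := (q : ℝ) - p with hδ
  have hδ0 : 0 < δ := sub_pos.2 hpq
  have hδ1 : δ ≤ 1 := by linarith [q.2.2, p.2.1]
  set C := pairBound H B with hC
  have hC0 : 0 ≤ C := sum_nonneg fun _ _ => sq_nonneg _
  have key : ∀ N : ℕ, δ / 2 - C * δ ^ 2 / ((N : ℝ) + 1) ≤ (perc W q).real (exitB H B o) := by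
    intro N
    have hM : (0 : ℝ) < (N : ℝ) + 1 := by positivity
    set s : ℝ := δ / ((N : ℝ) + 1) with hs
    have hs0 : 0 ≤ s := by positivity
    have hs1 : s ≤ 1 := by
      rw [hs, div_le_one hM]; linarith [(N.cast_nonneg : (0 : ℝ) ≤ N)]
    let h : unitInterval := ⟨s, hs0, hs1⟩
    let P : ℕ → unitInterval := fun k => (fun r => orQ r h)^[k] p
    have hP : ∀ k, (p : ℝ) ≤ P k ∧ (P k : ℝ) ≤ p + k * s ∧
        min (1 / 2) (k * s / 2) - k * (C * s ^ 2) ≤ (perc W (P k)).real (exitB H B o) := by
      intro k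
      induction k with
      | zero => simp [P]
      | succ k ih =>
        obtain ⟨i1, i2, i3⟩ := ih
        have hstep := sprinkle_step (h := h) ho fun S hS => (hphi S hS).trans (phi_mono i1 S)
        have hval : (P (k + 1) : ℝ) = P k + (1 - (P k : ℝ)) * s := by
          simp only [P, Function.iterate_succ_apply', coe_orQ, h]
        have hPk : 0 ≤ (P k : ℝ) ∧ (P k : ℝ) ≤ 1 := (P k).2
        have e : P (k + 1) = orQ (P k) h := by simp [P, Function.iterate_succ_apply']
        refine ⟨?_, ?_, ?_⟩
        · rw [hval]; nlinarith [hPk.2]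
        · rw [hval]; push_cast; nlinarith [hPk.1]
        · rw [e]
          refine le_trans ?_ hstep
          set θ := (perc W (P k)).real (exitB H B o)
          have hθ : θ ≤ 1 := measureReal_le_one
          show min (1 / 2) _ - _ ≤ θ + s * (1 - θ) - pairBound H B * s ^ 2
          push_cast
          rw [← hC]
          rcases le_or_gt (1 / 2 : ℝ) θ with hh | hh
          · have := min_le_left (1 / 2 : ℝ) (((k : ℝ) + 1) * s / 2)
            nlinarith [mul_nonneg hs0 (sub_nonneg.2 hθ), mul_nonneg k.cast_nonneg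
              (mul_nonneg hC0 (sq_nonneg s))]
          · have h6 : min (1 / 2 : ℝ) (((k : ℝ) + 1) * s / 2)
                ≤ min (1 / 2 : ℝ) ((k : ℝ) * s / 2) + s / 2 := by
              rw [← min_add_add_right]
              exact min_le_min (by linarith) (le_of_eq (by ring))
            nlinarith
    obtain ⟨-, a2, a3⟩ := hP (N + 1)
    have hNs : ((N + 1 : ℕ) : ℝ) * s = δ := by
      push_cast; rw [hs]; field_simp
    rw [hNs] at a2
    refine le_trans ?_ (a3.trans (real_mono (measurableSet_exitB B ho)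
      (fun ω η he hm => exitB_mono he hm) (by linarith)))
    rw [hNs, min_eq_right (by linarith)]
    refine le_of_eq ?_
    rw [hs]; push_cast; field_simp
  refine le_of_forall_pos_le_add fun ε hε => ?_
  obtain ⟨N, hN⟩ := exists_nat_gt (C * δ ^ 2 / ε)
  have hM : (0 : ℝ) < (N : ℝ) + 1 := by positivity
  have : C * δ ^ 2 / ((N : ℝ) + 1) ≤ ε := by
    rw [div_le_iff₀ hM]
    rw [div_lt_iff₀ hε] at hN
    nlinarith
  linarith [key N]

omit [DecidableEq W] [H.LocallyFinite] in
lemma exitB_of_walk {B : Finset W} {x u : W} {ω : Sym2 W → Bool}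
    (q : (openGraph H ω).Walk x u) (hx : x ∈ B) (hu : u ∉ B) : ω ∈ exitB H B x := by
  induction q with
  | nil => exact absurd hx hu
  | @cons a b c hab q ih =>
    by_cases hb : b ∈ B
    · exact exitB_step hx hab.1 hab.2 (Or.inr (ih hb hu))
    · exact exitB_step hx hab.1 hab.2 (Or.inl hb)

/-- If every finite set around `o` has boundary sum at least one, the cluster of `o` is infinite
with positive probability at every larger density. -/
theorem toInf_lower [Countable W] (o : W) (hphi : ∀ S : Finset W, o ∈ S → 1 ≤ phi H p o S)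
    {q : unitInterval} (hq : (p : ℝ) < q) :
    ((q : ℝ) - p) / 2 ≤ (perc W q).real (toInf H o) := by
  classical
  have : Nonempty W := ⟨o⟩
  obtain ⟨f, hf⟩ := exists_surjective_nat W
  let Bn : ℕ → Finset W := fun n => insert o ((range n).image f)
  have hanti : Antitone fun n => exitB H (Bn n) o := by
    intro m n hmn ω hω
    obtain ⟨u, v, hv, huv, ho', hc⟩ := hω
    obtain ⟨w⟩ := connIn_subset_conn _ o u hc
    have hadj : (openGraph H ω).Adj u v := ⟨huv, ho'⟩
    exact exitB_of_walk (w.concat hadj) (mem_insert_self _ _)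
      fun hv' => hv (insert_subset_insert _ (image_subset_image (range_mono hmn)) hv')
  have hmeas : ∀ n, MeasurableSet (exitB H (Bn n) o) := fun n =>
    measurableSet_exitB _ (mem_insert_self _ _)
  have hsub : (⋂ n, exitB H (Bn n) o) ⊆ toInf H o := by
    intro ω hω
    refine fun hfin => ?_
    choose g hg using fun y => hf y
    let n := hfin.toFinset.sup g + 1
    obtain ⟨u, v, hv, huv, ho', hc⟩ := Set.mem_iInter.1 hω n
    have hr : (openGraph H ω).Reachable o v :=
      (connIn_subset_conn _ o u hc).trans (SimpleGraph.Adj.reachable ⟨huv, ho'⟩)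
    refine hv (mem_insert_of_mem (mem_image.2 ⟨g v, mem_range.2 ?_, hg v⟩))
    exact Nat.lt_succ_of_le (le_sup (f := g) (hfin.mem_toFinset.2 hr))
  have hlim : (((q : ℝ) - p) / 2) ≤ (perc W q).real (⋂ n, exitB H (Bn n) o) := by
    have ht := tendsto_measure_iInter_atTop (μ := perc W q)
      (fun n => (hmeas n).nullMeasurableSet) hanti ⟨0, measure_ne_top _ _⟩
    exact ge_of_tendsto' ((ENNReal.tendsto_toReal (measure_ne_top _ _)).comp ht) fun n =>
      exitB_lower hq (mem_insert_self _ _) hphi
  exact hlim.trans (measureReal_mono hsub)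

/-- If every finite set has boundary sum at least one, the critical point is at most `p`. -/
theorem pc_le_of_phi [Countable W] (o : W) (hphi : ∀ S : Finset W, o ∈ S → 1 ≤ phi H p o S) :
    pc H ≤ p := by
  refine le_of_forall_gt_imp_ge_of_dense fun r hr => ?_
  have hb : BddBelow (insert (1 : ℝ) (Subtype.val '' {s : unitInterval |
      0 < perc W s {ω | ∃ x, {y | (openGraph H ω).Reachable x y}.Infinite}})) :=
    ⟨0, by rintro _ (rfl | ⟨s, -, rfl⟩)
           · exact zero_le_one
           · exact s.2.1⟩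
  rcases le_or_gt 1 r with hr1 | hr1
  · exact (csInf_le hb (Set.mem_insert _ _)).trans hr1
  let q : unitInterval := ⟨r, (lt_of_le_of_lt p.2.1 hr).le, hr1.le⟩
  refine csInf_le hb (Set.mem_insert_of_mem _ ⟨q, ?_, rfl⟩)
  have hq : (p : ℝ) < q := hr
  have h := toInf_lower o hphi hq
  show 0 < perc W q _
  refine lt_of_lt_of_le ?_ (measure_mono (s := toInf H o) fun ω hω => ⟨o, hω⟩)
  rw [← ofReal_measureReal (measure_ne_top _ _)]
  exact ENNReal.ofReal_pos.2 (lt_of_lt_of_le (by linarith) h)

end Vale.Agent.P165.Product
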