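import Mathlib
import Vale.Agent.P165.Product.Sharp

/-!
Finite susceptibility below the critical point on graphs with finitely many orbits.
-/

namespace Vale.Agent.P165.Product

open MeasureTheory Finset

variable {W : Type} [DecidableEq W] {H : SimpleGraph W} [H.LocallyFinite] {p : unitInterval}

open Classical in
/-- The vertices of `S` joined to `o` inside `S`. -/
noncomputable def comp (H : SimpleGraph W) (S : Finset W) (o : W) (ω : Sym2 W → Bool) : Finset W :=
  S.filter fun x => ω ∈ connIn H S o x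

omit [H.LocallyFinite] in
lemma dep_comp (S C : Finset W) {o : W} (ho : o ∈ S) :
    Dep {ω | comp H S o ω = C} (S.sym2.filter fun e => ∃ x ∈ C, x ∈ e) := by
  intro ω ω' hag h
  classical
  have hag' : ∀ a b, a ∈ S → b ∈ S → a ∈ C → ω s(a, b) = ω' s(a, b) := fun a b ha hb haC =>
    hag _ (mem_filter.2 ⟨mk_mem_sym2_iff.2 ⟨ha, hb⟩, a, haC, Sym2.mem_mk_left a b⟩)
  have hC : ∀ x, x ∈ C ↔ x ∈ S ∧ ω ∈ connIn H S o x := by
    intro x; rw [← (h : comp H S o ω = C)]; simp [comp]
  show comp H S o ω' = C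
  rw [← (h : comp H S o ω = C)]
  refine filter_congr fun x hx => ?_
  have fwd : ∀ (a b : W) (q : (openGraph (inG H S) ω).Walk a b), ω ∈ connIn H S o a → a ∈ S →
      ω' ∈ connIn H S o a → ω' ∈ connIn H S o b := by
    intro a b q
    induction q with
    | nil => exact fun _ _ h => h
    | @cons a c b hab q ih =>
      intro ha haS ha'
      refine ih (ha.trans (SimpleGraph.Adj.reachable hab)) hab.1.2.2 (ha'.trans ?_)
      refine SimpleGraph.Adj.reachable (G := openGraph (inG H S) ω') ⟨hab.1, ?_⟩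
      rw [← hag' a c haS hab.1.2.2 ((hC a).2 ⟨haS, ha⟩)]; exact hab.2
  have bwd : ∀ (a b : W) (q : (openGraph (inG H S) ω').Walk a b), ω ∈ connIn H S o a → a ∈ S →
      ω ∈ connIn H S o b := by
    intro a b q
    induction q with
    | nil => exact fun h _ => h
    | @cons a c b hab q ih =>
      intro ha haS
      refine ih (ha.trans (SimpleGraph.Adj.reachable (G := openGraph (inG H S) ω) ⟨hab.1, ?_⟩))
        hab.1.2.2
      rw [hag' a c haS hab.1.2.2 ((hC a).2 ⟨haS, ha⟩)]; exact hab.2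
  exact ⟨fun hx' => by obtain ⟨q⟩ := hx'; exact bwd o x q (SimpleGraph.Reachable.refl _) ho,
    fun hx' => by
      obtain ⟨q⟩ := hx'
      exact fwd o x q (SimpleGraph.Reachable.refl _) ho (SimpleGraph.Reachable.refl _)⟩

omit [H.LocallyFinite] in
lemma last_exit {U C : Finset W} {x y : W} {ω : Sym2 W → Bool}
    (q : (openGraph (inG H U) ω).Walk x y) (hy : y ∉ C) :
    (x ∉ C ∧ ω ∈ connIn H (U \ C) x y) ∨
      ∃ a b, a ∈ C ∧ b ∉ C ∧ H.Adj a b ∧ ω s(a, b) = true ∧ ω ∈ connIn H (U \ C) b y := by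
  induction q with
  | nil => exact Or.inl ⟨hy, SimpleGraph.Reachable.refl _⟩
  | @cons a b c hab q ih =>
    rcases ih hy with ⟨hb, hc⟩ | h
    · by_cases ha : a ∈ C
      · exact Or.inr ⟨a, b, ha, hb, hab.1.1, hab.2, hc⟩
      · refine Or.inl ⟨ha, SimpleGraph.Reachable.trans ?_ hc⟩
        exact SimpleGraph.Adj.reachable (G := openGraph (inG H (U \ C)) ω)
          ⟨⟨hab.1.1, mem_sdiff.2 ⟨hab.1.2.1, ha⟩, mem_sdiff.2 ⟨hab.1.2.2, hb⟩⟩, hab.2⟩
    · exact Or.inr h

/-- The expected number of points of `T` joined to `x` inside `U`. -/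
noncomputable def chiIn (H : SimpleGraph W) (p : unitInterval) (T U : Finset W) (x : W) : ℝ :=
  ∑ y ∈ T, (perc W p).real (connIn H U x y)

omit [DecidableEq W] [H.LocallyFinite] in
lemma connIn_of_walk {U : Finset W} {ω : Sym2 W → Bool} {x y : W}
    (q : (openGraph H ω).Walk x y) (h : ∀ z ∈ q.support, z ∈ U) : ω ∈ connIn H U x y := by
  induction q with
  | nil => exact SimpleGraph.Reachable.refl _
  | @cons a b c hab q ih =>
    refine (SimpleGraph.Adj.reachable (G := openGraph (inG H U) ω)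
      ⟨⟨hab.1, h a (by simp), h b ?_⟩, hab.2⟩).trans (ih fun z hz => h z (by simp [hz]))
    simp [SimpleGraph.Walk.start_mem_support q]

lemma chiIn_step {S T U : Finset W} {o : W} (ho : o ∈ S) {M : ℝ}
    (hM : ∀ U x, chiIn H p T U x ≤ M) :
    chiIn H p T U o ≤ S.card + phi H p o S * M := by
  classical
  set μ := perc W p
  let F : Finset W → W × W → W → Set (Sym2 W → Bool) := fun C e y =>
    {ω | comp H S o ω = C} ∩ (allOpen {s(e.1, e.2)} ∩ connIn H (U \ C) e.2 y)
  let X : Finset W → Finset (W × W) := fun C => (bd H S).filter fun e => e.1 ∈ C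
  have hfar : ∀ y, y ∉ S → μ.real (connIn H U o y)
      ≤ ∑ C ∈ S.powerset, ∑ e ∈ X C, μ.real (F C e y) := by
    intro y hy
    refine le_trans (measureReal_mono (s₂ := ⋃ C ∈ S.powerset, ⋃ e ∈ X C, F C e y) ?_
      (measure_ne_top _ _))
      ((measureReal_biUnion_finset_le _ _).trans
        (sum_le_sum fun C _ => measureReal_biUnion_finset_le _ _))
    intro ω hω
    obtain ⟨q⟩ := hω
    have hCS : comp H S o ω ⊆ S := filter_subset _ _
    rcases last_exit q (fun h => hy (hCS h) : y ∉ comp H S o ω) with ⟨hn, -⟩ | ⟨a, b, ha, hb, hab, hop, hc⟩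
    · exact absurd (mem_filter.2 ⟨ho, SimpleGraph.Reachable.refl _⟩) hn
    · have hbS : b ∉ S := fun hb' => hb (mem_filter.2 ⟨hb', (mem_filter.1 ha).2.trans
        (SimpleGraph.Adj.reachable (G := openGraph (inG H S) ω) ⟨⟨hab, hCS ha, hb'⟩, hop⟩)⟩)
      simp only [Set.mem_iUnion, exists_prop, F, X, mem_filter]
      exact ⟨comp H S o ω, mem_powerset.2 hCS, (a, b), ⟨mem_bd.2 ⟨hCS ha, hbS, hab⟩, ha⟩, rfl,
        by simpa [allOpen] using hop, hc⟩
  have hF : ∀ C ∈ S.powerset, ∀ e ∈ X C, ∀ y,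
      μ.real (F C e y) = μ.real {ω | comp H S o ω = C} *
        (p * μ.real (connIn H (U \ C) e.2 y)) := by
    intro C hC e he y
    obtain ⟨he1, he2⟩ := mem_filter.1 he
    obtain ⟨h1, h2, -⟩ := mem_bd.1 he1
    have hd : Disjoint ({s(e.1, e.2)} : Finset (Sym2 W)) (U \ C).sym2 := by
      refine disjoint_singleton_left.2 fun h => ?_
      exact (mem_sdiff.1 (mk_mem_sym2_iff.1 h).1).2 he2
    have hd' : Disjoint (S.sym2.filter fun e => ∃ x ∈ C, x ∈ e)
        ({s(e.1, e.2)} ∪ (U \ C).sym2) := by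
      refine disjoint_left.2 fun z hz hz' => ?_
      obtain ⟨hzS, x, hx, hxz⟩ := mem_filter.1 hz
      rcases mem_union.1 hz' with hz' | hz'
      · rw [mem_singleton] at hz'
        exact h2 (mk_mem_sym2_iff.1 (hz' ▸ hzS)).2
      · exact (mem_sdiff.1 (mem_sym2_iff.1 hz' x hxz)).2 hx
    rw [real_inter_of_disjoint (dep_comp S C ho) (((dep_allOpen _).mono subset_union_left).inter
        ((dep_connIn _ _ _).mono subset_union_right)) hd',
      real_inter_of_disjoint (dep_allOpen _) (dep_connIn _ _ _) hd, real_allOpen]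
    simp
    rfl
  have hswap : ∑ C ∈ S.powerset, ∑ _e ∈ X C, μ.real {ω | comp H S o ω = C}
      = ∑ e ∈ bd H S, μ.real (connIn H S o e.1) := by
    simp only [X, sum_filter]
    rw [sum_comm]
    refine sum_congr rfl fun e he => ?_
    have hmeas : ∀ C, MeasurableSet {ω : Sym2 W → Bool | comp H S o ω = C} := fun C =>
      (dep_comp S C ho).measurableSet
    rw [← sum_filter, ← measureReal_biUnion_finset (fun C _ C' _ hne => Set.disjoint_left.2
      fun ω h1 h2 => hne (h1.symm.trans h2)) fun C _ => hmeas C]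
    congr 1
    ext ω
    simp only [Set.mem_iUnion, exists_prop, mem_filter, mem_powerset, Set.mem_ofPred_eq]
    constructor
    · rintro ⟨C, ⟨-, hC⟩, rfl⟩
      exact (mem_filter.1 hC).2
    · exact fun h => ⟨_, ⟨filter_subset _ _, mem_filter.2 ⟨(mem_bd.1 he).1, h⟩⟩, rfl⟩
  have hM0 : 0 ≤ M := le_trans (sum_nonneg fun _ _ => measureReal_nonneg) (hM U o)
  calc chiIn H p T U o
      = ∑ y ∈ T.filter (· ∈ S), μ.real (connIn H U o y)
        + ∑ y ∈ T.filter (· ∉ S), μ.real (connIn H U o y) :=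
        (sum_filter_add_sum_filter_not T _ _).symm
    _ ≤ S.card + ∑ y ∈ T, ∑ C ∈ S.powerset, ∑ e ∈ X C, μ.real (F C e y) := by
        refine add_le_add ?_ ?_
        · refine (sum_le_card_nsmul _ _ 1 fun y _ => measureReal_le_one).trans ?_
          rw [nsmul_one]
          exact_mod_cast card_le_card fun y hy => (mem_filter.1 hy).2
        · exact (sum_le_sum fun y hy => hfar y (mem_filter.1 hy).2).trans
            (sum_le_sum_of_subset_of_nonneg (filter_subset _ _) fun _ _ _ =>
              sum_nonneg fun _ _ => sum_nonneg fun _ _ => measureReal_nonneg)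
    _ = S.card + ∑ C ∈ S.powerset, ∑ e ∈ X C,
          μ.real {ω | comp H S o ω = C} * (p * chiIn H p T (U \ C) e.2) := by
        rw [sum_comm]
        congr 1
        refine sum_congr rfl fun C hC => ?_
        rw [sum_comm]
        refine sum_congr rfl fun e he => ?_
        simp only [chiIn, mul_sum]
        exact sum_congr rfl fun y _ => hF C hC e he y
    _ ≤ S.card + ∑ C ∈ S.powerset, ∑ _e ∈ X C, μ.real {ω | comp H S o ω = C} * (p * M) := by
        gcongr with C hC e he
        · exact p.2.1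
        · exact hM _ _
    _ = _ := by
        simp only [← sum_mul, hswap, phi]
        ring

omit [DecidableEq W] [H.LocallyFinite] in
lemma mem_map_iso (φ : H ≃g H) {S : Finset W} {x : W} :
    φ x ∈ S.map φ.toEquiv.toEmbedding ↔ x ∈ S :=
  Finset.mem_map' φ.toEquiv.toEmbedding

lemma phi_map [Countable W] (φ : H ≃g H) (o : W) (S : Finset W) :
    phi H p (φ o) (S.map φ.toEquiv.toEmbedding) = phi H p o S := by
  classical
  unfold phi
  congr 1
  symm
  refine sum_bij (fun e _ => (φ e.1, φ e.2)) (fun e he => ?_) (fun e _ e' _ h => ?_)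
    (fun e he => ?_) (fun e he => ?_)
  · obtain ⟨h1, h2, h3⟩ := mem_bd.1 he
    exact mem_bd.2 ⟨(mem_map_iso φ).2 h1, fun h => h2 ((mem_map_iso φ).1 h), φ.map_adj_iff.2 h3⟩
  · exact Prod.ext (φ.injective (congrArg Prod.fst h)) (φ.injective (congrArg Prod.snd h))
  · obtain ⟨a, b⟩ := e
    obtain ⟨h1, h2, h3⟩ := mem_bd.1 he
    obtain ⟨a', rfl⟩ := φ.surjective a
    obtain ⟨b', rfl⟩ := φ.surjective b
    exact ⟨(a', b'), mem_bd.2 ⟨(mem_map_iso φ).1 h1, fun h => h2 ((mem_map_iso φ).2 h),
      φ.map_adj_iff.1 h3⟩, rfl⟩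
  · conv_lhs => rw [← perc_map φ.toEquiv]
    rw [map_measureReal_apply (measurable_pi_lambda _ fun e => measurable_pi_apply _)
      (measurableSet_connIn _ _ _)]
    congr 1
    ext ω
    let ψ : openGraph (inG H S) (fun e => ω (Sym2.map φ.toEquiv e)) ≃g
        openGraph (inG H (S.map φ.toEquiv.toEmbedding)) ω :=
      { toEquiv := φ.toEquiv
        map_rel_iff' := by
          intro a b
          exact and_congr (and_congr φ.map_adj_iff (and_congr (mem_map_iso φ) (mem_map_iso φ)))
            Iff.rfl }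
    exact (SimpleGraph.Iso.reachable_iff (φ := ψ)).symm

/-- The susceptibility is bounded when every vertex has a finite set of boundary sum at most
`ρ < 1` and bounded size. -/
theorem sum_conn_le_of_phi [Countable W] {R ρ : ℝ} (hR : 0 ≤ R) (hρ0 : 0 ≤ ρ) (hρ1 : ρ < 1)
    (hS : ∀ x, ∃ S : Finset W, x ∈ S ∧ (S.card : ℝ) ≤ R ∧ phi H p x S ≤ ρ) (v : W) (T : Finset W) :
    ∑ y ∈ T, (perc W p).real (conn H v y) ≤ R / (1 - ρ) := by
  classical
  have hstep : ∀ M, (∀ U x, chiIn H p T U x ≤ M) → ∀ U x, chiIn H p T U x ≤ R + ρ * M := by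
    intro M hM U x
    obtain ⟨S, hx, hc, hf⟩ := hS x
    exact (chiIn_step hx hM).trans (add_le_add hc (mul_le_mul_of_nonneg_right hf
      (le_trans (sum_nonneg fun _ _ => measureReal_nonneg) (hM U x))))
  have hit : ∀ n : ℕ, ∀ U x, chiIn H p T U x ≤ R / (1 - ρ) + ρ ^ n * T.card := by
    intro n
    induction n with
    | zero =>
      intro U x
      refine le_add_of_nonneg_of_le (div_nonneg hR (by linarith)) ?_
      simpa [chiIn] using sum_le_card_nsmul T _ 1 fun y _ => measureReal_le_one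
    | succ n ih =>
      intro U x
      refine (hstep _ ih U x).trans (le_of_eq ?_)
      have : (1 - ρ) ≠ 0 := by linarith
      field_simp
      ring
  have hfin : ∀ U x, chiIn H p T U x ≤ R / (1 - ρ) := by
    intro U x
    have hl : Filter.Tendsto (fun n : ℕ => R / (1 - ρ) + ρ ^ n * T.card) Filter.atTop
        (nhds (R / (1 - ρ))) := by
      simpa using ((tendsto_pow_atTop_nhds_zero_of_lt_one hρ0 hρ1).mul_const (T.card : ℝ)).const_add
        (R / (1 - ρ))
    exact ge_of_tendsto' hl fun n => hit n U x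
  have : Nonempty W := ⟨v⟩
  obtain ⟨f, hf⟩ := exists_surjective_nat W
  let U : ℕ → Finset W := fun n => insert v ((range n).image f)
  have hlim : ∀ y, Filter.Tendsto (fun n => (perc W p).real (connIn H (U n) v y)) Filter.atTop
      (nhds ((perc W p).real (conn H v y))) := by
    intro y
    have hmono : Monotone fun n => connIn H (U n) v y := fun m n hmn ω hω =>
      connIn_mono (insert_subset_insert _ (image_subset_image (range_mono hmn))) (fun _ h => h) hω
    have he : (⋃ n, connIn H (U n) v y) = conn H v y := by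
      refine Set.Subset.antisymm (Set.iUnion_subset fun n => connIn_subset_conn _ _ _) ?_
      intro ω hω
      obtain ⟨q⟩ := hω
      choose g hg using hf
      refine Set.mem_iUnion.2 ⟨q.support.toFinset.sup g + 1, ?_⟩
      have hmem : ∀ z ∈ q.support, z ∈ U (q.support.toFinset.sup g + 1) := fun z hz =>
        mem_insert_of_mem (mem_image.2 ⟨g z, mem_range.2 (Nat.lt_succ_of_le
          (le_sup (f := g) (List.mem_toFinset.2 hz))), hg z⟩)
      exact connIn_of_walk q hmem
    rw [← he]
    exact (ENNReal.tendsto_toReal (measure_ne_top _ _)).comp (tendsto_measure_iUnion_atTop hmono)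
  exact le_of_tendsto' (tendsto_finsetSum T fun y _ => hlim y) fun n => hfin (U n) v

/-- Below the critical point of a graph with finitely many orbits the susceptibility is bounded. -/
theorem susceptibility_bound [Countable W] (horb : ∃ O : Finset W, ∀ v, ∃ φ : H ≃g H, φ v ∈ O)
    (hp : (p : ℝ) < pc H) :
    ∃ C : ℝ, ∀ (v : W) (T : Finset W), ∑ y ∈ T, (perc W p).real (conn H v y) ≤ C := by
  classical
  obtain ⟨O, hO⟩ := horb
  have hS : ∀ o, ∃ S : Finset W, o ∈ S ∧ phi H p o S < 1 := by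
    intro o
    by_contra hn
    push Not at hn
    exact absurd (pc_le_of_phi o hn) (not_le.2 hp)
  choose S hoS hphi using hS
  rcases O.eq_empty_or_nonempty with rfl | hne
  · exact ⟨0, fun v => absurd (hO v) fun ⟨_, h⟩ => notMem_empty _ h⟩
  obtain ⟨o₀, -, ho₀⟩ := O.exists_max_image (fun o => phi H p o (S o)) hne
  obtain ⟨o₁, -, ho₁⟩ := O.exists_max_image (fun o => ((S o).card : ℝ)) hne
  refine ⟨((S o₁).card : ℝ) / (1 - phi H p o₀ (S o₀)), fun v T => ?_⟩
  refine sum_conn_le_of_phi (Nat.cast_nonneg _)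
    (mul_nonneg p.2.1 (sum_nonneg fun _ _ => measureReal_nonneg)) (hphi o₀) (fun x => ?_) v T
  obtain ⟨φ, hφ⟩ := hO x
  refine ⟨(S (φ x)).map φ.symm.toEquiv.toEmbedding,
    mem_map.2 ⟨φ x, hoS _, φ.symm_apply_apply x⟩, ?_, ?_⟩
  · rw [card_map]; exact ho₁ _ hφ
  · have key := phi_map (p := p) φ.symm (φ x) (S (φ x))
    rw [φ.symm_apply_apply] at key
    exact key.trans_le (ho₀ _ hφ)

/-- An unbounded susceptibility puts the critical point at or below `p`. -/
theorem pc_le_of_susceptibility [Countable W]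
    (horb : ∃ O : Finset W, ∀ v, ∃ φ : H ≃g H, φ v ∈ O)
    (h : ∀ C : ℝ, ∃ (v : W) (T : Finset W), C < ∑ y ∈ T, (perc W p).real (conn H v y)) :
    pc H ≤ p := by
  by_contra hp
  obtain ⟨C, hC⟩ := susceptibility_bound horb (not_le.1 hp)
  obtain ⟨v, T, hT⟩ := h C
  exact absurd (hC v T) (not_le.2 hT)

end Vale.Agent.P165.Product
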